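import Mathlib

/-! Extension theorem for direct finiteness of group algebras in characteristic `p`. -/

namespace Vale.Agent.P194

open MonoidAlgebra (single)

universe u v

section
variable {K : Type u} {G : Type v} [DivisionRing K] [Group G]

open Classical in
/-- sum of the coefficients over the right coset `M g` -/
noncomputable def cs (M : Subgroup G) (g : G) : MonoidAlgebra K G →+ K :=
  (Finsupp.liftAddHom (fun h : G => if h * g⁻¹ ∈ M then AddMonoidHom.id K else 0)).comp
    (MonoidAlgebra.coeffAddEquiv (R := K) (M := G)).toAddMonoidHom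

open Classical in
lemma cs_single (M : Subgroup G) (g h : G) (c : K) :
    cs M g (single h c) = if h * g⁻¹ ∈ M then c else 0 := by
  unfold cs
  simp only [AddMonoidHom.coe_comp, Function.comp_apply]
  change (Finsupp.liftAddHom (fun h : G => if h * g⁻¹ ∈ M then AddMonoidHom.id K else 0))
    (Finsupp.single h c) = _
  rw [Finsupp.liftAddHom_apply_single]
  split_ifs <;> rfl

/-- all coset sums vanish -/
def W (M : Subgroup G) : AddSubgroup (MonoidAlgebra K G) where
  carrier := {w | ∀ g, cs M g w = 0}
  add_mem' := by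
    intro a b ha hb g
    rw [map_add, ha g, hb g, add_zero]
  zero_mem' := by
    intro g
    rw [map_zero]
  neg_mem' := by
    intro a ha g
    rw [map_neg, ha g, neg_zero]

lemma mem_W {M : Subgroup G} {w : MonoidAlgebra K G} : w ∈ W M ↔ ∀ g, cs M g w = 0 := Iff.rfl

lemma cs_left (M : Subgroup G) (g m : G) (hm : m ∈ M) (w : MonoidAlgebra K G) :
    cs M g (single m 1 * w) = cs M g w := by
  classical
  have h : (cs M g).comp (AddMonoidHom.mulLeft (single m (1 : K))) = cs M g := by
    apply MonoidAlgebra.addMonoidHom_ext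
    intro h c
    simp only [AddMonoidHom.coe_comp, Function.comp_apply, AddMonoidHom.coe_mulLeft]
    rw [MonoidAlgebra.single_mul_single, one_mul, cs_single, cs_single, mul_assoc]
    simp only [Subgroup.mul_mem_cancel_left M hm]
  exact DFunLike.congr_fun h w

lemma cs_norm (M : Subgroup G) (T g : G) (hT : ∀ x, T * x ∈ M ↔ x * T ∈ M)
    (w : MonoidAlgebra K G) : cs M g (single T 1 * w) = cs M (T⁻¹ * g) w := by
  classical
  have h : (cs M g).comp (AddMonoidHom.mulLeft (single T (1 : K))) = cs M (T⁻¹ * g) := by
    apply MonoidAlgebra.addMonoidHom_ext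
    intro h c
    simp only [AddMonoidHom.coe_comp, Function.comp_apply, AddMonoidHom.coe_mulLeft]
    rw [MonoidAlgebra.single_mul_single, one_mul, cs_single, cs_single]
    have h1 : T * h * g⁻¹ ∈ M ↔ h * (T⁻¹ * g)⁻¹ ∈ M := by
      rw [mul_assoc, hT, mul_inv_rev, inv_inv, mul_assoc]
    simp only [h1]
  exact DFunLike.congr_fun h w

lemma W_left (M : Subgroup G) (m : G) (hm : m ∈ M) (w : MonoidAlgebra K G) :
    single m 1 * w - w ∈ W M := by
  intro g
  rw [map_sub, cs_left M g m hm, sub_self]

lemma W_norm (M : Subgroup G) (T : G) (hT : ∀ x, T * x ∈ M ↔ x * T ∈ M)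
    (w : MonoidAlgebra K G) (hw : w ∈ W M) : single T 1 * w ∈ W M := by
  intro g
  rw [cs_norm M T g hT]
  exact hw _

/-- monotonicity -/
lemma W_mono {M L : Subgroup G} (hML : M ≤ L) (w : MonoidAlgebra K G) (hw : w ∈ W M) :
    w ∈ W L := by
  classical
  set q : G → Quotient (QuotientGroup.rightRel M) := fun g => Quotient.mk _ g with hq
  have h1 : Finsupp.mapDomain q w.coeff = 0 := by
    ext a
    induction a using Quotient.inductionOn with
    | _ g =>
      have h2 : ((Finsupp.applyAddHom (q g)).comp (Finsupp.mapDomain.addMonoidHom q)).comp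
          (MonoidAlgebra.coeffAddEquiv (R := K) (M := G)).toAddMonoidHom = cs M g := by
        apply MonoidAlgebra.addMonoidHom_ext
        intro h c
        rw [cs_single]
        change (Finsupp.mapDomain q (Finsupp.single h c)) (q g) = _
        rw [Finsupp.mapDomain_single, Finsupp.single_apply]
        have h3 : q h = q g ↔ h * g⁻¹ ∈ M := by
          rw [hq]
          simp only
          rw [Quotient.eq, QuotientGroup.rightRel_apply, ← Subgroup.inv_mem_iff, mul_inv_rev,
            inv_inv]
        simp only [h3]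
      have h4 := DFunLike.congr_fun h2 w
      rw [hw g] at h4
      exact h4
  intro g
  set ψ : (Quotient (QuotientGroup.rightRel M) →₀ K) →+ K :=
    Finsupp.liftAddHom (fun a => if (Quotient.out a) * g⁻¹ ∈ L then AddMonoidHom.id K else 0)
    with hψ
  have h5 : cs L g = (ψ.comp (Finsupp.mapDomain.addMonoidHom q)).comp
      (MonoidAlgebra.coeffAddEquiv (R := K) (M := G)).toAddMonoidHom := by
    apply MonoidAlgebra.addMonoidHom_ext
    intro h c
    rw [cs_single]
    change _ = ψ (Finsupp.mapDomain q (Finsupp.single h c))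
    rw [Finsupp.mapDomain_single, hψ, Finsupp.liftAddHom_apply_single]
    have h6 : h * (Quotient.out (q h))⁻¹ ∈ M := by
      have h7 : Quotient.mk (QuotientGroup.rightRel M) (Quotient.out (q h)) = q h :=
        Quotient.out_eq _
      rw [hq] at h7
      simp only at h7
      rw [Quotient.eq, QuotientGroup.rightRel_apply] at h7
      exact h7
    have h8 : h * g⁻¹ ∈ L ↔ Quotient.out (q h) * g⁻¹ ∈ L := by
      have h9 : h * g⁻¹ = (h * (Quotient.out (q h))⁻¹) * (Quotient.out (q h) * g⁻¹) := by group
      rw [h9]
      exact Subgroup.mul_mem_cancel_left L (hML h6)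
    simp only [h8]
    split_ifs <;> rfl
  rw [h5]
  change ψ (Finsupp.mapDomain q w.coeff) = 0
  rw [h1, map_zero]

/-- a cyclic step of order `p` -/
structure Step (p : ℕ) (L M : Subgroup G) (T : G) (f : G → ZMod p) : Prop where
  add : ∀ x ∈ L, ∀ y ∈ L, f (x * y) = f x + f y
  mem : ∀ x, x ∈ M ↔ x ∈ L ∧ f x = 0
  T_mem : T ∈ L
  T_one : f T = 1

lemma Step.pow {p : ℕ} {L M : Subgroup G} {T : G} {f : G → ZMod p} (h : Step p L M T f) (j : ℕ) :
    f (T ^ j) = j := by
  have h1 : f 1 = 0 := by
    have := h.add 1 L.one_mem 1 L.one_mem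
    rw [mul_one] at this
    exact left_eq_add.1 this
  induction j with
  | zero => simpa using h1
  | succ j ih =>
    rw [pow_succ, h.add _ (L.pow_mem h.T_mem j) _ h.T_mem, ih, h.T_one]
    push_cast
    rfl

lemma Step.norm {p : ℕ} {L M : Subgroup G} {T : G} {f : G → ZMod p} (h : Step p L M T f) (x : G) :
    T * x ∈ M ↔ x * T ∈ M := by
  have h1 : T * x ∈ L ↔ x ∈ L := Subgroup.mul_mem_cancel_left L h.T_mem
  have h2 : x * T ∈ L ↔ x ∈ L := Subgroup.mul_mem_cancel_right L h.T_mem
  rw [h.mem, h.mem, h1, h2]
  constructor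
  · rintro ⟨hx, hf⟩
    rw [h.add _ h.T_mem _ hx] at hf
    exact ⟨hx, by rw [h.add _ hx _ h.T_mem, add_comm]; exact hf⟩
  · rintro ⟨hx, hf⟩
    rw [h.add _ hx _ h.T_mem] at hf
    exact ⟨hx, by rw [h.add _ h.T_mem _ hx, add_comm]; exact hf⟩

lemma Step.le {p : ℕ} {L M : Subgroup G} {T : G} {f : G → ZMod p} (h : Step p L M T f) :
    M ≤ L := fun x hx => ((h.mem x).1 hx).1

/-- coset sums of the orbit sum -/
lemma cs_orbit {p : ℕ} [Fact p.Prime] {L M : Subgroup G} {T : G} {f : G → ZMod p}
    (h : Step p L M T f) (g : G) (w : MonoidAlgebra K G) :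
    ∑ j : ZMod p, cs M g (single (T ^ j.val) 1 * w) = cs L g w := by
  classical
  have h0 : ∑ j : ZMod p, (cs M g).comp (AddMonoidHom.mulLeft (single (T ^ j.val) (1 : K)))
      = cs L g := by
    apply MonoidAlgebra.addMonoidHom_ext
    intro x c
    rw [AddMonoidHom.finsetSum_apply]
    simp only [AddMonoidHom.coe_comp, Function.comp_apply, AddMonoidHom.coe_mulLeft]
    simp only [MonoidAlgebra.single_mul_single, one_mul, cs_single]
    have h1 : ∀ j : ZMod p, (T ^ j.val * x * g⁻¹ ∈ M) ↔ (x * g⁻¹ ∈ L ∧ j = - f (x * g⁻¹)) := by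
      intro j
      rw [h.mem, mul_assoc, Subgroup.mul_mem_cancel_left L (L.pow_mem h.T_mem _)]
      constructor
      · rintro ⟨h2, h3⟩
        refine ⟨h2, ?_⟩
        rw [h.add _ (L.pow_mem h.T_mem _) _ h2, h.pow, ZMod.natCast_zmod_val] at h3
        exact eq_neg_of_add_eq_zero_left h3
      · rintro ⟨h2, h3⟩
        refine ⟨h2, ?_⟩
        rw [h.add _ (L.pow_mem h.T_mem _) _ h2, h.pow, ZMod.natCast_zmod_val, h3, neg_add_cancel]
    simp only [h1]
    by_cases h2 : x * g⁻¹ ∈ L
    · simp [h2]
    · simp [h2]
  have h3 := DFunLike.congr_fun h0 w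
  rw [AddMonoidHom.finsetSum_apply] at h3
  exact h3

lemma W_orbit {p : ℕ} [Fact p.Prime] {L M : Subgroup G} {T : G} {f : G → ZMod p}
    (h : Step p L M T f) (w : MonoidAlgebra K G)
    (hw : ∑ j : ZMod p, single (T ^ j.val) 1 * w ∈ W M) : w ∈ W L := by
  intro g
  rw [← cs_orbit h g w, ← map_sum]
  exact hw g

lemma cs_smul (M : Subgroup G) (g : G) (a : K) (w : MonoidAlgebra K G) :
    cs M g (single 1 a * w) = a * cs M g w := by
  classical
  have h : (cs M g).comp (AddMonoidHom.mulLeft (single 1 a))
      = (AddMonoidHom.mulLeft a).comp (cs M g) := by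
    apply MonoidAlgebra.addMonoidHom_ext
    intro h c
    simp only [AddMonoidHom.coe_comp, Function.comp_apply, AddMonoidHom.coe_mulLeft]
    rw [MonoidAlgebra.single_mul_single, one_mul, cs_single, cs_single]
    split_ifs
    · rfl
    · rw [mul_zero]
  exact DFunLike.congr_fun h w

lemma W_smul (M : Subgroup G) (a : K) (w : MonoidAlgebra K G) (hw : w ∈ W M) :
    single 1 a * w ∈ W M := by
  intro g
  rw [cs_smul, hw g, mul_zero]

/-! ### the cyclic step -/

section cyc
variable (p : ℕ) {ι : Type}

/-- shift of coefficient families -/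
def sh : AddMonoid.End (ι × ZMod p → K) where
  toFun c := fun x => c (x.1, x.2 - 1)
  map_zero' := rfl
  map_add' _ _ := rfl

lemma sh_pow (m : ℕ) (c : ι × ZMod p → K) (x : ι × ZMod p) :
    ((sh (K := K) (ι := ι) p) ^ m) c x = c (x.1, x.2 - m) := by
  induction m generalizing x with
  | zero => simp
  | succ m ih =>
    rw [pow_succ']
    change ((sh (K := K) (ι := ι) p) ^ m) c (x.1, x.2 - 1) = _
    rw [ih]
    simp only
    congr 2
    push_cast
    ring

variable [hp : Fact p.Prime] [CharP K p]

lemma nilp (c : ι × ZMod p → K) (hc : c ≠ 0) :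
    ((sh (K := K) (ι := ι) p - 1) ^ p) c = 0 := by
  have hchar : CharP (AddMonoid.End (ι × ZMod p → K)) p := by
    constructor
    intro m
    constructor
    · intro h
      have h1 : ((m : AddMonoid.End (ι × ZMod p → K))) c = 0 := by
        rw [h]
        rfl
      obtain ⟨x, hx⟩ := Function.ne_iff.1 hc
      have h2 := congrFun h1 x
      rw [AddMonoid.End.natCast_apply] at h2
      simp only [Pi.smul_apply, Pi.zero_apply, nsmul_eq_mul, mul_eq_zero] at h2
      rcases h2 with h2 | h2
      · exact (CharP.cast_eq_zero_iff K p m).1 h2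
      · exact absurd h2 hx
    · rintro ⟨q, rfl⟩
      ext d
      rw [AddMonoid.End.natCast_apply]
      simp [mul_comm p q]
  have h1 : (sh (K := K) (ι := ι) p) ^ p = 1 := by
    ext d x
    rw [sh_pow]
    simp
  have h2 : (sh (K := K) (ι := ι) p - 1) ^ p = 0 := by
    rw [sub_pow_char_of_commute p (Commute.one_right _), one_pow, h1, sub_self]
  rw [h2]
  rfl

variable [Fintype ι]

/-- independence modulo `W L` -/
def Ind {n : ℕ} (L : Subgroup G) {κ : Type} [Fintype κ] (v : κ → Fin n → MonoidAlgebra K G) :
    Prop :=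
  ∀ c : κ → K, (∀ i, ∑ s, single 1 (c s) * v s i ∈ W L) → c = 0

lemma ind_step {n : ℕ} {L M : Subgroup G} {T : G} {f : G → ZMod p} (h : Step p L M T f)
    (v : ι → Fin n → MonoidAlgebra K G) (hv : Ind L v) :
    Ind M (fun (x : ι × ZMod p) i => single (T ^ x.2.val) 1 * v x.1 i) := by
  classical
  -- the additive group of relations
  set C : (ι × ZMod p → K) → Prop := fun c =>
    ∀ i, ∑ x : ι × ZMod p, single 1 (c x) * (single (T ^ x.2.val) 1 * v x.1 i) ∈ W M with hC
  have hCsh : ∀ c, C c → C (sh p c) := by
    intro c hc i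
    have h1 : ∑ x : ι × ZMod p, single 1 (sh p c x) * (single (T ^ x.2.val) 1 * v x.1 i)
        = ∑ x : ι × ZMod p, single 1 (c x) * (single (T ^ (x.2 + 1).val) 1 * v x.1 i) := by
      rw [← Equiv.sum_comp (Equiv.prodCongr (Equiv.refl ι) (Equiv.addRight (1 : ZMod p)))]
      apply Finset.sum_congr rfl
      intro x _
      change single 1 (c (x.1, x.2 + 1 - 1)) * (single (T ^ (x.2 + 1).val) 1 * v x.1 i) = _
      rw [add_sub_cancel_right]
    have h2 : ∑ x : ι × ZMod p, single 1 (c x) * (single (T ^ (x.2.val + 1)) 1 * v x.1 i)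
        = single T 1 * ∑ x : ι × ZMod p, single 1 (c x) * (single (T ^ x.2.val) 1 * v x.1 i) := by
      rw [Finset.mul_sum]
      apply Finset.sum_congr rfl
      intro x _
      rw [← mul_assoc, ← mul_assoc, ← mul_assoc, MonoidAlgebra.single_mul_single,
        MonoidAlgebra.single_mul_single, MonoidAlgebra.single_mul_single, pow_succ']
      simp
    have h3 : ∑ x : ι × ZMod p, single 1 (sh p c x) * (single (T ^ x.2.val) 1 * v x.1 i)
        = (∑ x : ι × ZMod p, single 1 (c x) * (single (T ^ (x.2 + 1).val) 1 * v x.1 i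
            - single (T ^ (x.2.val + 1)) 1 * v x.1 i))
          + single T 1 * ∑ x : ι × ZMod p, single 1 (c x) * (single (T ^ x.2.val) 1 * v x.1 i) := by
      rw [h1, ← h2, ← Finset.sum_add_distrib]
      apply Finset.sum_congr rfl
      intro x _
      rw [mul_sub]
      abel
    rw [h3]
    apply AddSubgroup.add_mem
    · apply AddSubgroup.sum_mem
      intro x _
      apply W_smul
      have h4 : single (T ^ (x.2 + 1).val) (1 : K) * v x.1 i
          = single (T ^ (x.2 + 1).val * (T ^ (x.2.val + 1))⁻¹) 1
            * (single (T ^ (x.2.val + 1)) 1 * v x.1 i) := by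
        rw [← mul_assoc, MonoidAlgebra.single_mul_single, inv_mul_cancel_right, one_mul]
      rw [h4]
      apply W_left
      have hTL : ∀ k : ℕ, T ^ k ∈ L := fun k => L.pow_mem h.T_mem k
      rw [h.mem]
      have h5 : T ^ (x.2 + 1).val * (T ^ (x.2.val + 1))⁻¹ ∈ L :=
        L.mul_mem (hTL _) (L.inv_mem (hTL _))
      refine ⟨h5, ?_⟩
      have h6 := h.add _ h5 _ (hTL (x.2.val + 1))
      rw [inv_mul_cancel_right, h.pow, h.pow, ZMod.natCast_zmod_val] at h6
      push_cast at h6
      rw [ZMod.natCast_zmod_val] at h6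
      exact (right_eq_add.1 h6)
    · exact W_norm M T h.norm _ (hc i)
  have hCsub : ∀ c d, C c → C d → C (c - d) := by
    intro c d hc hd i
    have h1 : ∑ x : ι × ZMod p, single 1 ((c - d) x) * (single (T ^ x.2.val) 1 * v x.1 i)
        = ∑ x : ι × ZMod p, single 1 (c x) * (single (T ^ x.2.val) 1 * v x.1 i)
          - ∑ x : ι × ZMod p, single 1 (d x) * (single (T ^ x.2.val) 1 * v x.1 i) := by
      rw [← Finset.sum_sub_distrib]
      apply Finset.sum_congr rfl
      intro x _
      rw [Pi.sub_apply, MonoidAlgebra.single_sub, sub_mul]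
    rw [h1]
    exact AddSubgroup.sub_mem _ (hc i) (hd i)
  have hCD : ∀ k : ℕ, ∀ c, C c → C (((sh (K := K) (ι := ι) p - 1) ^ k) c) := by
    intro k
    induction k with
    | zero =>
      intro c hc
      exact hc
    | succ k ih =>
      intro c hc
      rw [pow_succ']
      exact hCsub _ _ (hCsh _ (ih c hc)) (ih c hc)
  intro c hc
  by_contra hc0
  have hex : ∃ k : ℕ, ((sh (K := K) (ι := ι) p - 1) ^ k) c = 0 := ⟨p, nilp p c hc0⟩
  set k := Nat.find hex with hk
  have hk1 : k ≠ 0 := by
    intro h0
    have := Nat.find_spec hex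
    rw [← hk, h0, pow_zero] at this
    exact hc0 this
  obtain ⟨k', hk'⟩ := Nat.exists_eq_succ_of_ne_zero hk1
  set d := ((sh (K := K) (ι := ι) p - 1) ^ k') c with hd
  have hd0 : d ≠ 0 := by
    intro h0
    exact Nat.find_min hex (m := k') (by omega) h0
  have hdC : C d := hCD k' c hc
  have hdsh : sh p d = d := by
    have := Nat.find_spec hex
    rw [← hk, hk', pow_succ'] at this
    have h2 : sh p d - d = 0 := this
    exact sub_eq_zero.1 h2
  have hdconst : ∀ s j, d (s, j) = d (s, 0) := by
    intro s j
    have h1 : ∀ m : ℕ, ((sh (K := K) (ι := ι) p) ^ m) d = d := by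
      intro m
      induction m with
      | zero => rfl
      | succ m ih =>
        rw [pow_succ]
        change ((sh (K := K) (ι := ι) p) ^ m) (sh p d) = d
        rw [hdsh, ih]
    have h2 := congrFun (h1 j.val) (s, j)
    rw [sh_pow] at h2
    simp only at h2
    rw [ZMod.natCast_zmod_val, sub_self] at h2
    exact h2.symm
  have he := hv (fun s => d (s, 0)) (by
    intro i
    apply W_orbit h
    have h1 := hdC i
    rw [Fintype.sum_prod_type, Finset.sum_comm] at h1
    convert h1 using 1
    apply Finset.sum_congr rfl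
    intro j _
    rw [Finset.mul_sum]
    apply Finset.sum_congr rfl
    intro s _
    rw [hdconst s j, ← mul_assoc, ← mul_assoc, MonoidAlgebra.single_mul_single,
      MonoidAlgebra.single_mul_single]
    simp)
  apply hd0
  funext x
  have h1 := congrFun he x.1
  simp only [Pi.zero_apply] at h1
  rw [show x = (x.1, x.2) from rfl, hdconst, h1]
  rfl

end cyc

/-- part of an element on a fibre of `f` -/
noncomputable def part {p : ℕ} (f : G → ZMod p) (j : ZMod p) (x : MonoidAlgebra K G) :
    MonoidAlgebra K G := .ofCoeff (x.coeff.filter (fun h => f h = j))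

omit [Group G] in
lemma part_support {p : ℕ} (f : G → ZMod p) (j : ZMod p) (x : MonoidAlgebra K G) :
    (part f j x).coeff.support = x.coeff.support.filter (fun h => f h = j) :=
  Finsupp.support_filter _ _

omit [Group G] in
lemma sum_part {p : ℕ} [NeZero p] (f : G → ZMod p) (x : MonoidAlgebra K G) :
    ∑ j : ZMod p, part f j x = x := by
  classical
  apply MonoidAlgebra.coeff_injective
  ext h
  rw [MonoidAlgebra.coeff_sum, Finsupp.finsetSum_apply]
  have h1 : ∀ j : ZMod p, (part f j x).coeff h = if f h = j then x.coeff h else 0 := by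
    intro j
    change (x.coeff.filter (fun h => f h = j)) h = _
    rw [Finsupp.filter_apply]
  simp only [h1]
  simp

lemma mul_single_support (y : MonoidAlgebra K G) (g : G) (x : G) :
    x ∈ (y * single g⁻¹ 1).coeff.support ↔ x * g ∈ y.coeff.support := by
  rw [Finsupp.mem_support_iff, Finsupp.mem_support_iff, MonoidAlgebra.coeff_mul_single_apply]
  simp

lemma mul_single_card (y : MonoidAlgebra K G) (g : G) :
    (y * single g⁻¹ 1).coeff.support.card = y.coeff.support.card := by
  classical
  apply Finset.card_bij' (fun x _ => x * g) (fun x _ => x * g⁻¹)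
  · intro x hx
    exact (mul_single_support y g x).1 hx
  · intro x hx
    rw [mul_single_support]
    rwa [inv_mul_cancel_right]
  · intro x _
    group
  · intro x _
    group

open Classical in
/-- counting lemma -/
lemma count {p : ℕ} [NeZero p] (f : G → ZMod p) (x : MonoidAlgebra K G) :
    ∑ j : ZMod p, ((part f j x).coeff.support.card - 1)
        + (Finset.univ.filter (fun j : ZMod p => part f j x ≠ 0)).card
      = x.coeff.support.card := by
  classical
  have h1 : x.coeff.support.card = ∑ j : ZMod p, (part f j x).coeff.support.card := by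
    simp only [part_support]
    exact Finset.card_eq_sum_card_fiberwise (fun h _ => Finset.mem_univ (f h))
  rw [h1, Finset.card_filter, ← Finset.sum_add_distrib]
  apply Finset.sum_congr rfl
  intro j _
  split_ifs with h
  · have : 0 < (part f j x).coeff.support.card := by
      rw [Finset.card_pos, Finsupp.support_nonempty_iff]
      intro h2
      exact h (MonoidAlgebra.coeff_injective h2)
    omega
  · push Not at h
    rw [h]
    simp

theorem main (p : ℕ) [hp : Fact p.Prime] [CharP K p] (N : Subgroup G)
    (hN : ∀ H : Subgroup G, H ≤ N → H.FG → H ≠ ⊥ →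
      ∃ (M : Subgroup G) (T : G) (f : G → ZMod p), Step p H M T f) (n : ℕ) :
    ∀ (μ : ℕ) (ι : Type) [Fintype ι] (L : Subgroup G) (y : ι → MonoidAlgebra K G)
      (v : ι → Fin n → MonoidAlgebra K G), L ≤ N → (∀ s, ∀ h ∈ (y s).coeff.support, h ∈ L) →
      Ind L v → (∀ i, ∑ s, y s * v s i = 0) →
      (∑ s, ((y s).coeff.support.card - 1) ≤ μ) → ∀ s, y s = 0 := by
  classical
  intro μ
  induction μ using Nat.strong_induction_on with
  | _ μ ih =>
  intro ι _ L y v hLN hyL hv hsum hμ
  by_contra hcon
  push Not at hcon
  obtain ⟨s₀, hs₀⟩ := hcon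
  -- normalisation
  have hch : ∀ s, ∃ g : G, g ∈ L ∧ (y s ≠ 0 → g ∈ (y s).coeff.support) := by
    intro s
    by_cases h : y s = 0
    · exact ⟨1, L.one_mem, fun h2 => absurd h h2⟩
    · have h2 : (y s).coeff.support.Nonempty := by
        rw [Finsupp.support_nonempty_iff]
        intro h3
        exact h (MonoidAlgebra.coeff_injective h3)
      obtain ⟨g, hg⟩ := h2
      exact ⟨g, hyL s g hg, fun _ => hg⟩
  choose g hgL hg using hch
  set y' : ι → MonoidAlgebra K G := fun s => y s * single (g s)⁻¹ 1 with hy'
  set v' : ι → Fin n → MonoidAlgebra K G := fun s i => single (g s) 1 * v s i with hv'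
  have hyv : ∀ s i, y' s * v' s i = y s * v s i := by
    intro s i
    rw [hy', hv']
    simp only
    rw [mul_assoc, ← mul_assoc (single (g s)⁻¹ (1 : K)), MonoidAlgebra.single_mul_single,
      inv_mul_cancel, one_mul, ← MonoidAlgebra.one_def, one_mul]
  have hy0 : ∀ s, y' s = 0 → y s = 0 := by
    intro s h
    have h1 : y s = y' s * single (g s) 1 := by
      rw [hy']
      simp only
      rw [mul_assoc, MonoidAlgebra.single_mul_single, inv_mul_cancel, one_mul,
        ← MonoidAlgebra.one_def, mul_one]
    rw [h1, h, zero_mul]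
  have hy1 : ∀ s, y s ≠ 0 → (1 : G) ∈ (y' s).coeff.support := by
    intro s hs
    rw [hy']
    simp only
    rw [mul_single_support, one_mul]
    exact hg s hs
  have hyL' : ∀ s, ∀ h ∈ (y' s).coeff.support, h ∈ L := by
    intro s h hh
    rw [hy'] at hh
    simp only at hh
    rw [mul_single_support] at hh
    have h1 := hyL s _ hh
    exact (Subgroup.mul_mem_cancel_right L (hgL s)).1 h1
  set A : Finset G := Finset.univ.biUnion (fun s => (y' s).coeff.support) with hA
  set L' := Subgroup.closure (A : Set G) with hL'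
  have hAL' : ∀ s, ∀ h ∈ (y' s).coeff.support, h ∈ L' := by
    intro s h hh
    apply Subgroup.subset_closure
    rw [Finset.mem_coe, hA, Finset.mem_biUnion]
    exact ⟨s, Finset.mem_univ _, hh⟩
  have hL'L : L' ≤ L := by
    rw [hL', Subgroup.closure_le]
    intro h hh
    rw [Finset.mem_coe, hA, Finset.mem_biUnion] at hh
    obtain ⟨s, _, hs⟩ := hh
    exact hyL' s h hs
  have hFG : L'.FG := ⟨A, rfl⟩
  have hvL' : Ind L' v' := by
    intro c hc
    apply hv c
    intro i
    have h1 : ∑ s, single 1 (c s) * v s i
        = ∑ s, single 1 (c s) * v' s i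
          - ∑ s, single 1 (c s) * (single (g s) 1 * v s i - v s i) := by
      rw [← Finset.sum_sub_distrib]
      apply Finset.sum_congr rfl
      intro s _
      rw [hv']
      simp only
      rw [mul_sub]
      abel
    rw [h1]
    apply AddSubgroup.sub_mem
    · exact W_mono hL'L _ (hc i)
    · apply AddSubgroup.sum_mem
      intro s _
      exact W_smul _ _ _ (W_left L (g s) (hgL s) _)
  have hsum' : ∀ i, ∑ s, y' s * v' s i = 0 := by
    intro i
    simp only [hyv]
    exact hsum i
  by_cases hbot : L' = ⊥
  · -- trivial group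
    have h1 : ∀ s, y' s = single 1 ((y' s).coeff 1) := by
      intro s
      apply MonoidAlgebra.coeff_injective
      ext h
      rw [MonoidAlgebra.coeff_single, Finsupp.single_apply]
      split_ifs with h2
      · rw [h2]
      · by_contra h3
        have h4 := hAL' s h (Finsupp.mem_support_iff.2 h3)
        rw [hbot, Subgroup.mem_bot] at h4
        exact h2 h4.symm
    have h2 := hvL' (fun s => (y' s).coeff 1) (by
      intro i
      have h3 : ∑ s, single 1 ((y' s).coeff 1) * v' s i = 0 := by
        rw [← hsum' i]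
        apply Finset.sum_congr rfl
        intro s _
        rw [← h1 s]
      rw [h3]
      exact AddSubgroup.zero_mem _)
    apply hs₀
    apply hy0
    rw [h1 s₀]
    have h3 := congrFun h2 s₀
    simp only [Pi.zero_apply] at h3
    rw [h3, MonoidAlgebra.single_zero]
  · obtain ⟨M, T, f, hstep⟩ := hN L' (hL'L.trans hLN) hFG hbot
    have hML : M ≤ L' := hstep.le
    set y'' : ι × ZMod p → MonoidAlgebra K G :=
      fun x => part f x.2 (y' x.1) * single (T ^ x.2.val)⁻¹ 1 with hy''
    set v'' : ι × ZMod p → Fin n → MonoidAlgebra K G :=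
      fun x i => single (T ^ x.2.val) 1 * v' x.1 i with hv''
    have hind : Ind M v'' := ind_step p hstep v' hvL'
    have hsupp : ∀ x, ∀ h ∈ (y'' x).coeff.support, h ∈ M := by
      intro x h hh
      rw [hy''] at hh
      simp only at hh
      rw [mul_single_support, part_support, Finset.mem_filter] at hh
      obtain ⟨h1, h2⟩ := hh
      have h3 := hAL' _ _ h1
      have h4 : h ∈ L' := (Subgroup.mul_mem_cancel_right L' (L'.pow_mem hstep.T_mem _)).1 h3
      rw [hstep.mem]
      refine ⟨h4, ?_⟩
      rw [hstep.add _ h4 _ (L'.pow_mem hstep.T_mem _), hstep.pow, ZMod.natCast_zmod_val] at h2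
      exact left_eq_add.1 (by rw [add_comm] at h2; exact h2.symm)
    have hsum'' : ∀ i, ∑ x, y'' x * v'' x i = 0 := by
      intro i
      rw [← hsum' i, Fintype.sum_prod_type]
      apply Finset.sum_congr rfl
      intro s _
      have h1 : ∀ j : ZMod p, y'' (s, j) * v'' (s, j) i = part f j (y' s) * v' s i := by
        intro j
        rw [hy'', hv'']
        simp only
        rw [mul_assoc, ← mul_assoc (single (T ^ j.val)⁻¹ (1 : K)),
          MonoidAlgebra.single_mul_single, inv_mul_cancel, one_mul, ← MonoidAlgebra.one_def,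
          one_mul]
      simp only [h1]
      rw [← Finset.sum_mul, sum_part]
    have hcard : ∀ s, (y' s).coeff.support.card = (y s).coeff.support.card := by
      intro s
      exact mul_single_card _ _
    have hy''card : ∀ s j, (y'' (s, j)).coeff.support.card = (part f j (y' s)).coeff.support.card := by
      intro s j
      exact mul_single_card _ _
    -- the measure decreases
    have hle : ∀ s, ∑ j : ZMod p, ((y'' (s, j)).coeff.support.card - 1)
        ≤ (y s).coeff.support.card - 1 := by
      intro s
      simp only [hy''card]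
      by_cases hs : y s = 0
      · have h1 : y' s = 0 := by
          rw [hy']
          simp only
          rw [hs, zero_mul]
        have h2 := count f (y' s)
        rw [hcard, hs] at h2
        simp only [MonoidAlgebra.coeff_zero, Finsupp.support_zero, Finset.card_empty] at h2
        omega
      · have h2 := count f (y' s)
        rw [hcard] at h2
        have h3 : 0 < (Finset.univ.filter (fun j : ZMod p => part f j (y' s) ≠ 0)).card := by
          rw [Finset.card_pos]
          refine ⟨f 1, ?_⟩
          rw [Finset.mem_filter]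
          refine ⟨Finset.mem_univ _, ?_⟩
          intro h4
          have h5 : (1 : G) ∈ (part f (f 1) (y' s)).coeff.support := by
            rw [part_support, Finset.mem_filter]
            exact ⟨hy1 s hs, rfl⟩
          rw [h4] at h5
          simp at h5
        omega
    have hlt : ∃ s, ∑ j : ZMod p, ((y'' (s, j)).coeff.support.card - 1)
        < (y s).coeff.support.card - 1 := by
      have h1 : ∃ s, ∃ x ∈ (y' s).coeff.support, f x ≠ 0 := by
        by_contra h2
        push Not at h2
        have h3 : L' ≤ M := by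
          rw [hL', Subgroup.closure_le]
          intro h hh
          rw [Finset.mem_coe, hA, Finset.mem_biUnion] at hh
          obtain ⟨s, _, hs⟩ := hh
          rw [SetLike.mem_coe, hstep.mem]
          exact ⟨hAL' s h hs, h2 s h hs⟩
        have h4 := ((hstep.mem T).1 (h3 hstep.T_mem)).2
        rw [hstep.T_one] at h4
        exact one_ne_zero h4
      obtain ⟨s, x, hx, hfx⟩ := h1
      have hs : y s ≠ 0 := by
        intro h
        have : y' s = 0 := by
          rw [hy']
          simp only
          rw [h, zero_mul]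
        rw [this] at hx
        simp at hx
      refine ⟨s, ?_⟩
      simp only [hy''card]
      have h2 := count f (y' s)
      rw [hcard] at h2
      have hf1 : f 1 = 0 := by
        have := hstep.pow 0
        simpa using this
      have h3 : 1 < (Finset.univ.filter (fun j : ZMod p => part f j (y' s) ≠ 0)).card := by
        rw [Finset.one_lt_card]
        have hne : ∀ z ∈ (y' s).coeff.support, part f (f z) (y' s) ≠ 0 := by
          intro z hz h4
          have h5 : z ∈ (part f (f z) (y' s)).coeff.support := by
            rw [part_support, Finset.mem_filter]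
            exact ⟨hz, rfl⟩
          rw [h4] at h5
          simp at h5
        refine ⟨f 1, ?_, f x, ?_, ?_⟩
        · rw [Finset.mem_filter]
          exact ⟨Finset.mem_univ _, hne 1 (hy1 s hs)⟩
        · rw [Finset.mem_filter]
          exact ⟨Finset.mem_univ _, hne x hx⟩
        · rw [hf1]
          exact hfx.symm
      omega
    have hmeas : ∑ x : ι × ZMod p, ((y'' x).coeff.support.card - 1) < μ := by
      rw [Fintype.sum_prod_type]
      refine lt_of_lt_of_le ?_ hμ
      obtain ⟨s, hs⟩ := hlt
      exact Finset.sum_lt_sum (fun s _ => hle s) ⟨s, Finset.mem_univ _, hs⟩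
    have hfin := ih _ hmeas (ι × ZMod p) M y'' v'' ((hML.trans hL'L).trans hLN) hsupp hind hsum''
      le_rfl
    apply hs₀
    apply hy0
    rw [← sum_part f (y' s₀)]
    apply Finset.sum_eq_zero
    intro j _
    have h1 : part f j (y' s₀) = y'' (s₀, j) * single (T ^ j.val) 1 := by
      rw [hy'']
      simp only
      rw [mul_assoc, MonoidAlgebra.single_mul_single, inv_mul_cancel, one_mul,
        ← MonoidAlgebra.one_def, mul_one]
    rw [h1, hfin, zero_mul]

end

end Vale.Agent.P194
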