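import Vale.Agent.P194.Ext

namespace Vale.Agent.P194

open MonoidAlgebra (single)

universe u v

section
variable {K : Type u} {G : Type v} [DivisionRing K] [Group G]

/-- a nontrivial homomorphism to `Z/p` gives a cyclic step -/
lemma step_of_hom (p : ℕ) [hp : Fact p.Prime] (H : Subgroup G)
    (χ : H →* Multiplicative (ZMod p)) (hχ : χ ≠ 1) :
    ∃ (M : Subgroup G) (T : G) (f : G → ZMod p), Step p H M T f := by
  classical
  obtain ⟨h, hh⟩ : ∃ h, χ h ≠ 1 := by
    by_contra hcon
    push Not at hcon
    exact hχ (MonoidHom.ext hcon)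
  set a : ZMod p := Multiplicative.toAdd (χ h) with ha
  have ha0 : a ≠ 0 := by
    intro h0
    apply hh
    rw [ha] at h0
    exact Multiplicative.toAdd.injective h0
  refine ⟨χ.ker.map H.subtype, ((h ^ (a⁻¹).val : H) : G),
    fun x => if hx : x ∈ H then Multiplicative.toAdd (χ ⟨x, hx⟩) else 0, ?_, ?_, ?_, ?_⟩
  · intro x hx y hy
    rw [dif_pos hx, dif_pos hy, dif_pos (H.mul_mem hx hy), ← toAdd_mul, ← map_mul]
    rfl
  · intro x
    rw [Subgroup.mem_map]
    constructor
    · rintro ⟨y, hy, rfl⟩
      rw [MonoidHom.mem_ker] at hy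
      refine ⟨y.2, ?_⟩
      simp only [Subgroup.coe_subtype, SetLike.coe_mem, dif_pos, Subtype.coe_eta]
      rw [hy]
      rfl
    · rintro ⟨hx, hf⟩
      rw [dif_pos hx] at hf
      refine ⟨⟨x, hx⟩, ?_, rfl⟩
      rw [MonoidHom.mem_ker]
      exact Multiplicative.toAdd.injective hf
  · exact (h ^ (a⁻¹).val).2
  · rw [dif_pos (h ^ (a⁻¹).val).2]
    simp only [Subtype.coe_eta]
    rw [map_pow, toAdd_pow, ← ha, nsmul_eq_mul, ZMod.natCast_zmod_val, inv_mul_cancel₀ ha0]

/-- right multiplication by a matrix that is left invertible modulo `N` is injective on rows -/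
theorem row_inj (p : ℕ) [hp : Fact p.Prime] [CharP K p] (N : Subgroup G) [N.Normal]
    (hN : ∀ H : Subgroup G, H ≤ N → H.FG → H ≠ ⊥ → ∃ χ : H →* Multiplicative (ZMod p), χ ≠ 1)
    (n : ℕ) (B : Matrix (Fin n) (Fin n) (MonoidAlgebra K G))
    (A' : Matrix (Fin n) (Fin n) (MonoidAlgebra K (G ⧸ N)))
    (hBA : B.map (MonoidAlgebra.mapDomainRingHom K (QuotientGroup.mk' N)) * A' = 1)
    (x : Fin n → MonoidAlgebra K G) (hx : ∀ j, ∑ i, x i * B i j = 0) : x = 0 := by
  classical
  set ρ := MonoidAlgebra.mapDomainRingHom K (QuotientGroup.mk' N) with hρ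
  set q : G → Quotient (QuotientGroup.rightRel N) := fun g => Quotient.mk _ g with hq
  set F : Finset (Quotient (QuotientGroup.rightRel N)) :=
    Finset.univ.biUnion (fun i => (x i).coeff.support.image q) with hF
  -- elements of W N vanish in the quotient
  have hWρ : ∀ w : MonoidAlgebra K G, w ∈ W N → ρ w = 0 := by
    intro w hw
    apply MonoidAlgebra.coeff_injective
    ext a
    induction a using QuotientGroup.induction_on with
    | H g =>
      have h2 : ((Finsupp.applyAddHom (QuotientGroup.mk' N g)).comp
          (MonoidAlgebra.coeffAddEquiv (R := K) (M := G ⧸ N)).toAddMonoidHom).comp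
          ρ.toAddMonoidHom = cs N g := by
        apply MonoidAlgebra.addMonoidHom_ext
        intro h c
        rw [cs_single]
        change (ρ (single h c)).coeff (QuotientGroup.mk' N g) = _
        rw [hρ, MonoidAlgebra.mapDomainRingHom_apply, MonoidAlgebra.mapDomain_single,
          MonoidAlgebra.coeff_single, Finsupp.single_apply]
        have h3 : QuotientGroup.mk' N h = QuotientGroup.mk' N g ↔ h * g⁻¹ ∈ N := by
          rw [QuotientGroup.mk'_apply, QuotientGroup.mk'_apply, QuotientGroup.eq,
            ← Subgroup.inv_mem_iff, mul_inv_rev, inv_inv]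
          constructor
          · intro h4
            have := Subgroup.Normal.conj_mem inferInstance _ h4 g
            have h5 : g * (g⁻¹ * h) * g⁻¹ = h * g⁻¹ := by group
            rwa [h5] at this
          · intro h4
            have := Subgroup.Normal.conj_mem inferInstance _ h4 g⁻¹
            have h5 : g⁻¹ * (h * g⁻¹) * g⁻¹⁻¹ = g⁻¹ * h := by group
            rwa [h5] at this
        simp only [h3]
      have h4 := DFunLike.congr_fun h2 w
      rw [hw g] at h4
      exact h4
  -- index type
  let e : Fin F.card ≃ F := F.equivFin.symm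
  set r : Fin F.card → G := fun t => Quotient.out (e t).1 with hr
  have hrq : ∀ t, q (r t) = (e t).1 := fun t => Quotient.out_eq _
  have hqiff : ∀ g h : G, q g = q h ↔ g * h⁻¹ ∈ N := by
    intro g h
    rw [hq]
    simp only
    rw [Quotient.eq, QuotientGroup.rightRel_apply, ← Subgroup.inv_mem_iff, mul_inv_rev, inv_inv]
  set y : Fin n × Fin F.card → MonoidAlgebra K G := fun s =>
    MonoidAlgebra.ofCoeff ((x s.1).coeff.filter (fun h => q h = (e s.2).1)) * single (r s.2)⁻¹ 1
    with hy
  set v : Fin n × Fin F.card → Fin n → MonoidAlgebra K G := fun s j =>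
    single (r s.2) 1 * B s.1 j with hv
  have hdec : ∀ i, ∑ t : Fin F.card,
      MonoidAlgebra.ofCoeff ((x i).coeff.filter (fun h => q h = (e t).1)) = x i := by
    intro i
    apply MonoidAlgebra.coeff_injective
    ext h
    rw [MonoidAlgebra.coeff_sum, Finsupp.finsetSum_apply]
    have h1 : ∀ t : Fin F.card,
        (MonoidAlgebra.ofCoeff ((x i).coeff.filter (fun h => q h = (e t).1))).coeff h
        = if q h = (e t).1 then (x i).coeff h else 0 := by
      intro t
      change ((x i).coeff.filter (fun h => q h = (e t).1)) h = _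
      rw [Finsupp.filter_apply]
    simp only [h1]
    by_cases h2 : (x i).coeff h = 0
    · simp [h2]
    · have h3 : q h ∈ F := by
        rw [hF, Finset.mem_biUnion]
        exact ⟨i, Finset.mem_univ _, Finset.mem_image_of_mem q (Finsupp.mem_support_iff.2 h2)⟩
      rw [Finset.sum_eq_single (e.symm ⟨q h, h3⟩)]
      · rw [Equiv.apply_symm_apply, if_pos rfl]
      · intro t _ ht
        rw [if_neg]
        intro h4
        apply ht
        rw [Equiv.eq_symm_apply]
        exact Subtype.ext h4.symm
      · intro h4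
        exact absurd (Finset.mem_univ _) h4
  have hyv : ∀ s j, y s * v s j
      = MonoidAlgebra.ofCoeff ((x s.1).coeff.filter (fun h => q h = (e s.2).1)) * B s.1 j := by
    intro s j
    rw [hy, hv]
    simp only
    rw [mul_assoc, ← mul_assoc (single (r s.2)⁻¹ (1 : K)), MonoidAlgebra.single_mul_single,
      inv_mul_cancel, one_mul, ← MonoidAlgebra.one_def, one_mul]
  have hsum : ∀ j, ∑ s, y s * v s j = 0 := by
    intro j
    simp only [hyv]
    rw [Fintype.sum_prod_type]
    rw [← hx j]
    apply Finset.sum_congr rfl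
    intro i _
    simp only
    rw [← Finset.sum_mul, hdec]
  have hsupp : ∀ s, ∀ h ∈ (y s).coeff.support, h ∈ N := by
    intro s h hh
    rw [hy] at hh
    simp only at hh
    rw [mul_single_support] at hh
    change h * r s.2 ∈ ((x s.1).coeff.filter (fun h => q h = (e s.2).1)).support at hh
    rw [Finsupp.support_filter, Finset.mem_filter] at hh
    have h1 := hh.2
    rw [← hrq s.2, hqiff, mul_inv_cancel_right] at h1
    exact h1
  have hind : Ind N v := by
    intro c hc
    -- the row z over the quotient
    set z : Fin n → MonoidAlgebra K (G ⧸ N) := fun i =>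
      ∑ t : Fin F.card, single (QuotientGroup.mk' N (r t)) (c (i, t)) with hz
    have hzB : ∀ j, ∑ i, z i * (B.map ρ) i j = 0 := by
      intro j
      have h1 := hWρ _ (hc j)
      rw [map_sum, Fintype.sum_prod_type] at h1
      rw [← h1]
      apply Finset.sum_congr rfl
      intro i _
      rw [hz]
      simp only
      rw [Finset.sum_mul]
      apply Finset.sum_congr rfl
      intro t _
      rw [map_mul, hv]
      simp only
      rw [map_mul, ← mul_assoc, hρ, MonoidAlgebra.mapDomainRingHom_apply,
        MonoidAlgebra.mapDomainRingHom_apply, MonoidAlgebra.mapDomain_single,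
        MonoidAlgebra.mapDomain_single, MonoidAlgebra.single_mul_single, map_one, one_mul, mul_one]
      rfl
    have hz0 : ∀ i, z i = 0 := by
      have h1 : Matrix.vecMul z (B.map ρ) = 0 := by
        funext j
        exact hzB j
      have h2 : Matrix.vecMul (Matrix.vecMul z (B.map ρ)) A' = z := by
        rw [Matrix.vecMul_vecMul, hBA, Matrix.vecMul_one]
      rw [h1, Matrix.zero_vecMul] at h2
      intro i
      rw [← h2]
      rfl
    funext s
    have h1 := congrArg (fun w => w.coeff (QuotientGroup.mk' N (r s.2))) (hz0 s.1)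
    rw [hz] at h1
    simp only [MonoidAlgebra.coeff_zero, Finsupp.coe_zero, Pi.zero_apply] at h1
    rw [MonoidAlgebra.coeff_sum, Finsupp.finsetSum_apply, Finset.sum_eq_single s.2] at h1
    · rw [MonoidAlgebra.coeff_single, Finsupp.single_eq_same] at h1
      exact h1
    · intro t _ ht
      rw [MonoidAlgebra.coeff_single, Finsupp.single_apply, if_neg]
      intro h2
      apply ht
      rw [QuotientGroup.mk'_apply, QuotientGroup.mk'_apply, QuotientGroup.eq] at h2
      have h3 : q (r t) = q (r s.2) := by
        rw [hqiff, ← Subgroup.inv_mem_iff, mul_inv_rev, inv_inv]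
        have := Subgroup.Normal.conj_mem inferInstance _ h2 (r t)
        have h5 : r t * ((r t)⁻¹ * r s.2) * (r t)⁻¹ = r s.2 * (r t)⁻¹ := by group
        rwa [h5] at this
      rw [hrq, hrq] at h3
      exact e.injective (Subtype.ext h3)
    · intro h4
      exact absurd (Finset.mem_univ _) h4
  have hfin := main p N (fun H h1 h2 h3 => by
    obtain ⟨χ, hχ⟩ := hN H h1 h2 h3
    exact step_of_hom p H χ hχ) n _ (Fin n × Fin F.card) N y v le_rfl hsupp hind hsum le_rfl
  funext i
  rw [← hdec i]
  apply Finset.sum_eq_zero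
  intro t _
  have h1 : MonoidAlgebra.ofCoeff ((x i).coeff.filter (fun h => q h = (e t).1))
      = y (i, t) * single (r t) 1 := by
    rw [hy]
    simp only
    rw [mul_assoc, MonoidAlgebra.single_mul_single, inv_mul_cancel, one_mul,
      ← MonoidAlgebra.one_def, mul_one]
  rw [h1, hfin, zero_mul]

/-- the extension theorem -/
theorem ext_n (p : ℕ) [hp : Fact p.Prime] [CharP K p] (N : Subgroup G) [N.Normal]
    (hN : ∀ H : Subgroup G, H ≤ N → H.FG → H ≠ ⊥ → ∃ χ : H →* Multiplicative (ZMod p), χ ≠ 1)
    (n : ℕ) (h : IsDedekindFiniteMonoid (Matrix (Fin n) (Fin n) (MonoidAlgebra K (G ⧸ N)))) :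
    IsDedekindFiniteMonoid (Matrix (Fin n) (Fin n) (MonoidAlgebra K G)) := by
  constructor
  intro A B hAB
  set ρ := MonoidAlgebra.mapDomainRingHom K (QuotientGroup.mk' N) with hρ
  have h1 : A.map ρ * B.map ρ = 1 := by
    rw [← Matrix.map_mul, hAB, Matrix.map_one ρ (map_zero ρ) (map_one ρ)]
  have h2 : B.map ρ * A.map ρ = 1 := h.mul_eq_one_symm h1
  have h3 : (1 - B * A) * B = 0 := by
    rw [sub_mul, one_mul, mul_assoc, hAB, mul_one, sub_self]
  have h4 : (1 - B * A) = 0 := by
    ext1 i j
    have h5 := row_inj p N hN n B (A.map ρ) h2 (fun j => (1 - B * A) i j) (by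
      intro j
      have := congrFun (congrFun h3 i) j
      rw [Matrix.mul_apply] at this
      exact this)
    exact congrFun h5 j
  exact (sub_eq_zero.1 h4).symm

end

end Vale.Agent.P194
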