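import Vale.Agent.P194.Res

namespace Vale.Agent.P194

universe u v

/-- a nontrivial homomorphism to `Z` gives one to `Z/p` -/
theorem hom_zmod {H : Type v} [Group H] (p : ℕ) [hp : Fact p.Prime]
    (χ : H →* Multiplicative ℤ) (hχ : χ ≠ 1) : ∃ ψ : H →* Multiplicative (ZMod p), ψ ≠ 1 := by
  classical
  set S : AddSubgroup ℤ := AddSubgroup.mk
    { carrier := {z | ∃ h : H, Multiplicative.toAdd (χ h) = z}
      add_mem' := by
        rintro a b ⟨x, rfl⟩ ⟨y, rfl⟩
        exact ⟨x * y, by rw [map_mul, toAdd_mul]⟩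
      zero_mem' := ⟨1, by rw [map_one, toAdd_one]⟩ }
    (by
      rintro a ⟨x, rfl⟩
      exact ⟨x⁻¹, by rw [map_inv, toAdd_inv]⟩) with hS
  obtain ⟨d, hd⟩ := Int.subgroup_cyclic S
  have hmem : ∀ h : H, Multiplicative.toAdd (χ h) ∈ S := fun h => ⟨h, rfl⟩
  have hdvd : ∀ h : H, d ∣ Multiplicative.toAdd (χ h) := by
    intro h
    have := hmem h
    rw [hd, AddSubgroup.mem_closure_singleton] at this
    obtain ⟨k, hk⟩ := this
    exact ⟨k, by rw [← hk, smul_eq_mul, mul_comm]⟩
  have hd0 : d ≠ 0 := by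
    intro h0
    apply hχ
    ext h
    have := hdvd h
    rw [h0, zero_dvd_iff] at this
    rw [this]
    rfl
  have hdS : d ∈ S := by
    rw [hd]
    exact AddSubgroup.subset_closure (Set.mem_singleton d)
  obtain ⟨h0, hh0⟩ := hdS
  refine ⟨⟨⟨fun h => Multiplicative.ofAdd ((Multiplicative.toAdd (χ h) / d : ℤ) : ZMod p), ?_⟩, ?_⟩,
    ?_⟩
  · rw [map_one, toAdd_one]
    simp
  · intro x y
    change Multiplicative.ofAdd ((Multiplicative.toAdd (χ (x * y)) / d : ℤ) : ZMod p) = _
    rw [map_mul, toAdd_mul, Int.add_ediv_of_dvd_left (hdvd x)]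
    push_cast
    rfl
  · intro h
    have h1 := DFunLike.congr_fun h h0
    change Multiplicative.ofAdd ((Multiplicative.toAdd (χ h0) / d : ℤ) : ZMod p) = 1 at h1
    rw [hh0, Int.ediv_self hd0] at h1
    have h2 : ((1 : ℤ) : ZMod p) = 0 := Multiplicative.ofAdd.injective h1
    rw [Int.cast_one] at h2
    exact one_ne_zero h2

section
variable {K : Type u} {G : Type v} [DivisionRing K] [Group G]

theorem final (p : ℕ) [hp : Fact p.Prime] [CharP K p] (N : Subgroup G) [N.Normal]
    (hN : ∀ H : Subgroup G, H ≤ N → H.FG → H ≠ ⊥ →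
      (∃ χ : H →* Multiplicative (ZMod p), χ ≠ 1) ∨ (∃ χ : H →* Multiplicative ℤ, χ ≠ 1)) :
    (∀ n : ℕ, IsDedekindFiniteMonoid (Matrix (Fin n) (Fin n) (MonoidAlgebra K (G ⧸ N))) →
      IsDedekindFiniteMonoid (Matrix (Fin n) (Fin n) (MonoidAlgebra K G))) ∧
    (IsDedekindFiniteMonoid (MonoidAlgebra K (G ⧸ N)) →
      IsDedekindFiniteMonoid (MonoidAlgebra K G)) ∧
    (IsStablyFiniteRing (MonoidAlgebra K (G ⧸ N)) → IsStablyFiniteRing (MonoidAlgebra K G)) ∧
    ((∀ g : G, g ∉ N → ∃ R : Subgroup G, N ≤ R ∧ R.Normal ∧ R.FiniteIndex ∧ g ∉ R) →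
      IsStablyFiniteRing (MonoidAlgebra K G)) := by
  have hN' : ∀ H : Subgroup G, H ≤ N → H.FG → H ≠ ⊥ →
      ∃ χ : H →* Multiplicative (ZMod p), χ ≠ 1 := by
    intro H h1 h2 h3
    rcases hN H h1 h2 h3 with h | ⟨χ, hχ⟩
    · exact h
    · exact hom_zmod p χ hχ
  have hext := fun n => ext_n (K := K) p N hN' n
  have hst : IsStablyFiniteRing (MonoidAlgebra K (G ⧸ N)) →
      IsStablyFiniteRing (MonoidAlgebra K G) :=
    fun h => ⟨fun n => hext n (h.isDedekindFiniteMonoid n)⟩
  refine ⟨hext, ?_, hst, ?_⟩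
  · intro h
    have e1 : Matrix (Fin 1) (Fin 1) (MonoidAlgebra K (G ⧸ N)) ≃* MonoidAlgebra K (G ⧸ N) :=
      (Matrix.uniqueRingEquiv (m := Fin 1) (A := MonoidAlgebra K (G ⧸ N))).toMulEquiv
    have e2 : Matrix (Fin 1) (Fin 1) (MonoidAlgebra K G) ≃* MonoidAlgebra K G :=
      (Matrix.uniqueRingEquiv (m := Fin 1) (A := MonoidAlgebra K G)).toMulEquiv
    have h1 : IsDedekindFiniteMonoid (Matrix (Fin 1) (Fin 1) (MonoidAlgebra K (G ⧸ N))) := by
      constructor
      intro a b hab
      apply e1.injective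
      rw [map_mul, map_one]
      apply h.mul_eq_one_symm
      rw [← map_mul, hab, map_one]
    have h2 := hext 1 h1
    constructor
    intro a b hab
    apply e2.symm.injective
    rw [map_mul, map_one]
    apply h2.mul_eq_one_symm
    rw [← map_mul, hab, map_one]
  · intro h
    apply hst
    apply stab_resfin
    intro g
    induction g using QuotientGroup.induction_on with
    | H g =>
      intro hg
      have hgN : g ∉ N := by
        intro h1
        exact hg ((QuotientGroup.eq_one_iff g).2 h1)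
      obtain ⟨R, h1, h2, h3, h4⟩ := h g hgN
      refine ⟨R.map (QuotientGroup.mk' N), ?_, ?_, ?_⟩
      · exact h2.map _ (QuotientGroup.mk'_surjective N)
      · constructor
        have h5 : (R.map (QuotientGroup.mk' N)).index ∣ R.index :=
          Subgroup.index_map_dvd R (QuotientGroup.mk'_surjective N)
        intro h6
        rw [h6, zero_dvd_iff] at h5
        exact h3.index_ne_zero h5
      · intro h5
        obtain ⟨r, hr, hrg⟩ := Subgroup.mem_map.1 h5
        apply h4
        rw [QuotientGroup.mk'_apply, QuotientGroup.eq] at hrg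
        have h6 : r⁻¹ * g ∈ R := h1 hrg
        have h7 := R.mul_mem hr h6
        rwa [mul_inv_cancel_left] at h7

end

end Vale.Agent.P194
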