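import Vale.Agent.P194.Fin

namespace Vale.Agent.P194

open MonoidAlgebra (single)

universe u v

section
variable {K : Type u} {G : Type v} [DivisionRing K] [Group G]

/-- finite groups -/
theorem stab_finite [Finite G] : IsStablyFiniteRing (MonoidAlgebra K G) := by
  have h1 : Module.Finite K (MonoidAlgebra K G) := by
    have : Module.Finite K (G →₀ K) := inferInstance
    exact Module.Finite.equiv (MonoidAlgebra.coeffLinearEquiv K (S := K) (M := G)).symm
  have h2 : IsNoetherian K (MonoidAlgebra K G) := inferInstance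
  have h3 : IsNoetherianRing (MonoidAlgebra K G) := isNoetherian_of_tower K h2
  infer_instance

/-- fully residual property -/
theorem stab_residual
    (h : ∀ S : Finset G, ∃ R : Subgroup G, ∃ _ : R.Normal,
      IsStablyFiniteRing (MonoidAlgebra K (G ⧸ R)) ∧
      ∀ x ∈ S, ∀ y ∈ S, (QuotientGroup.mk' R x) = (QuotientGroup.mk' R y) → x = y) :
    IsStablyFiniteRing (MonoidAlgebra K G) := by
  classical
  constructor
  intro n
  constructor
  intro A B hAB
  ext1 i j
  set w : MonoidAlgebra K G := (B * A) i j - (1 : Matrix (Fin n) (Fin n) (MonoidAlgebra K G)) i j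
    with hw
  obtain ⟨R, hR, hst, hinj⟩ := h w.coeff.support
  set ρ := MonoidAlgebra.mapDomainRingHom K (QuotientGroup.mk' R) with hρ
  have h1 : A.map ρ * B.map ρ = 1 := by
    rw [← Matrix.map_mul, hAB, Matrix.map_one ρ (map_zero ρ) (map_one ρ)]
  have h2 : B.map ρ * A.map ρ = 1 := (hst.isDedekindFiniteMonoid n).mul_eq_one_symm h1
  have h3 : ρ w = 0 := by
    rw [hw, map_sub]
    have h4 : ρ ((B * A) i j) = (B.map ρ * A.map ρ) i j := by
      rw [← Matrix.map_mul]
      rfl
    have h5 : ρ ((1 : Matrix (Fin n) (Fin n) (MonoidAlgebra K G)) i j)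
        = (1 : Matrix (Fin n) (Fin n) (MonoidAlgebra K (G ⧸ R))) i j := by
      rw [← Matrix.map_one ρ (map_zero ρ) (map_one ρ)]
      rfl
    rw [h4, h5, h2, sub_self]
  have h6 : w = 0 := by
    by_contra hne
    have h7 : w.coeff.support.Nonempty := by
      rw [Finsupp.support_nonempty_iff]
      intro h8
      exact hne (MonoidAlgebra.coeff_injective h8)
    obtain ⟨g, hg⟩ := h7
    have h8 : (ρ w).coeff (QuotientGroup.mk' R g) = w.coeff g := by
      rw [hρ, MonoidAlgebra.mapDomainRingHom_apply]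
      change (Finsupp.mapDomain (QuotientGroup.mk' R) w.coeff) (QuotientGroup.mk' R g) = _
      rw [Finsupp.mapDomain, Finsupp.sum, Finsupp.finsetSum_apply, Finset.sum_eq_single g]
      · rw [Finsupp.single_eq_same]
      · intro x hx hxg
        rw [Finsupp.single_apply, if_neg]
        intro h9
        exact hxg (hinj x hx g hg h9)
      · intro h9
        exact absurd hg h9
    rw [h3] at h8
    simp only [MonoidAlgebra.coeff_zero, Finsupp.coe_zero, Pi.zero_apply] at h8
    exact (Finsupp.mem_support_iff.1 hg) h8.symm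
  rw [hw] at h6
  exact sub_eq_zero.1 h6

/-- residually finite groups -/
theorem stab_resfin (h : ∀ g : G, g ≠ 1 → ∃ R : Subgroup G, R.Normal ∧ R.FiniteIndex ∧ g ∉ R) :
    IsStablyFiniteRing (MonoidAlgebra K G) := by
  classical
  apply stab_residual
  intro S
  have h1 : ∀ z : G, ∃ R : Subgroup G, R.Normal ∧ R.FiniteIndex ∧ (z ≠ 1 → z ∉ R) := by
    intro z
    by_cases hz : z = 1
    · exact ⟨⊤, inferInstance, inferInstance, fun h => absurd hz h⟩
    · obtain ⟨R, h1, h2, h3⟩ := h z hz
      exact ⟨R, h1, h2, fun _ => h3⟩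
  choose R hRn hRf hRz using h1
  set T : Finset G := (S ×ˢ S).image (fun x => x.1⁻¹ * x.2) with hT
  set Q : Subgroup G := ⨅ z : T, R z with hQ
  have hQn : Q.Normal := by
    constructor
    intro x hx g
    rw [hQ, Subgroup.mem_iInf] at hx ⊢
    intro z
    exact (hRn z).conj_mem x (hx z) g
  have hQf : Q.FiniteIndex := by
    rw [hQ]
    have : ∀ z : T, (R z).FiniteIndex := fun z => hRf z
    exact Subgroup.finiteIndex_iInf (fun z => hRf z)
  refine ⟨Q, hQn, ?_, ?_⟩
  · have : Finite (G ⧸ Q) := Subgroup.finite_quotient_of_finiteIndex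
    exact stab_finite
  · intro x hx y hy hxy
    by_contra hne
    rw [QuotientGroup.mk'_apply, QuotientGroup.mk'_apply, QuotientGroup.eq, hQ,
      Subgroup.mem_iInf] at hxy
    have h2 : x⁻¹ * y ∈ T := by
      rw [hT, Finset.mem_image]
      exact ⟨(x, y), Finset.mem_product.2 ⟨hx, hy⟩, rfl⟩
    have h3 := hxy ⟨x⁻¹ * y, h2⟩
    apply hRz (x⁻¹ * y) _ h3
    intro h4
    apply hne
    rw [inv_mul_eq_one] at h4
    exact h4

end

end Vale.Agent.P194
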